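import Vale.Agent.P343.Final

/-!
# P343, question Q2 (Sakoda-Sipser): both parts are refuted, with an exponential lower bound.
-/

namespace Vale.Agent.Results.P343.SakodaSipser

open Vale.Agent.P343

theorem result :
    -- (b): no polynomial bounds the cost of simulating one-way nondeterministic automata by 2DFAs
    (¬ ∃ p : Polynomial ℕ, ∀ (α : Type) [Fintype α] (n : ℕ) (A : TwoNFA α (Fin n)), A.OneWay →
        ∃ k : ℕ, k ≤ p.eval n ∧ ∃ B : TwoNFA α (Fin k), B.Deterministic ∧ SameLanguage A B) ∧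
    -- (a): no polynomial bounds the cost of simulating two-way nondeterministic automata by 2DFAs
    (¬ ∃ p : Polynomial ℕ, ∀ (α : Type) [Fintype α] (n : ℕ) (A : TwoNFA α (Fin n)),
        ∃ k : ℕ, k ≤ p.eval n ∧ ∃ B : TwoNFA α (Fin k), B.Deterministic ∧ SameLanguage A B) ∧
    -- exponential lower bound: one-way automata with at most `500 a^3` states all of whose
    -- equivalent 2DFAs have more than `2^a / 4 - 1` states
    (∀ a : ℕ, 1 ≤ a → ∃ (α : Type) (_ : Fintype α) (n : ℕ) (A : TwoNFA α (Fin n)),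
        n ≤ 500 * a ^ 3 ∧ A.OneWay ∧
        ∀ (k : ℕ) (B : TwoNFA α (Fin k)), B.Deterministic → SameLanguage A B →
          2 ^ a < 4 * (k + 1)) := by
  refine ⟨?_, ?_, lower_bound⟩
  · rintro ⟨p, hp⟩
    obtain ⟨α, hα, n, A, hA, hB⟩ := no_polynomial p
    obtain ⟨k, hk, B, hBd, hAB⟩ := hp α n A hA
    exact absurd hk (not_le.mpr (hB k B hBd hAB))
  · rintro ⟨p, hp⟩
    obtain ⟨α, hα, n, A, -, hB⟩ := no_polynomial p
    obtain ⟨k, hk, B, hBd, hAB⟩ := hp α n A
    exact absurd hk (not_le.mpr (hB k B hBd hAB))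

end Vale.Agent.Results.P343.SakodaSipser
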