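import Vale.Agent.P343.Final2

/-!
# P343, Q2: one-way nondeterministic automata can be exponentially more succinct than two-way deterministic automata
-/

namespace Vale.Agent.Results.P343.TwoWayBlowup

open Vale.Agent.P343 Vale.Agent.P343.Machine

/-- the family, with the bound in integer form -/
theorem family (a : ℕ) (ha : 1 ≤ a) :
    ∃ (α : Type) (_ : Fintype α) (σ : Type) (_ : Fintype σ) (A : NFA α σ) (s₀ : σ),
      A.start = {s₀} ∧ Fintype.card σ ≤ 500 * a ^ 3 ∧
      ∀ (Q : Type) (_ : Fintype Q) (B : DetTwoWay α Q),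
        (∀ w, B.Recognizes w ↔ w ∈ A.accepts) → 2 ^ a < 4 * (Fintype.card Q + 1) := by
  classical
  refine ⟨Letter (Pt (a + 1) (12 * (a * (a + 1)))), inferInstance, Pt (a + 1) (12 * (a * (a + 1))), inferInstance,
    liveNFA _ none, none, rfl, (Nat.le_succ _).trans (state_bound a ha), ?_⟩
  intro Q hQ B hB
  refine lower_bound_machine a ha Q B (fun w => ?_)
  rw [hB, liveNFA_accepts]

theorem exp_form (n : ℕ) (hn : 1 ≤ n) :
    ∃ (α : Type) (_ : Fintype α) (σ : Type) (_ : Fintype σ) (A : NFA α σ) (s₀ : σ),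
      A.start = {s₀} ∧ Fintype.card σ ≤ n ∧
      ∀ (Q : Type) (_ : Fintype Q) (B : DetTwoWay α Q),
        (∀ w, B.Recognizes w ↔ w ∈ A.accepts) →
          (2 : ℝ) ^ ((1 / 48 : ℝ) * (n : ℝ) ^ (1 / 3 : ℝ)) ≤ Fintype.card Q + 1 := by
  set m : ℝ := (n : ℝ) ^ (1 / 3 : ℝ) with hm
  have hn0 : (0 : ℝ) ≤ n := Nat.cast_nonneg n
  have hm0 : 0 ≤ m := Real.rpow_nonneg hn0 _
  have hm3 : m ^ 3 = n := by
    rw [hm, ← Real.rpow_natCast, ← Real.rpow_mul hn0]
    norm_num
  by_cases hsmall : m < 48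
  · refine ⟨Unit, inferInstance, Unit, inferInstance, ⟨fun _ _ => ∅, {()}, ∅⟩, (), rfl, by simpa using hn, ?_⟩
    intro Q hQ B _
    have h1 : 1 ≤ Fintype.card Q := Fintype.card_pos_iff.mpr ⟨B.init⟩
    have h2 : (2 : ℝ) ^ ((1 / 48 : ℝ) * m) ≤ (2 : ℝ) ^ (1 : ℝ) :=
      Real.rpow_le_rpow_of_exponent_le (by norm_num) (by linarith)
    have h3 : (1 : ℝ) ≤ Fintype.card Q := by exact_mod_cast h1
    rw [Real.rpow_one] at h2
    linarith
  · rw [not_lt] at hsmall
    set a : ℕ := ⌊m / 8⌋₊ with ha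
    have ha1 : (a : ℝ) ≤ m / 8 := Nat.floor_le (by positivity)
    have ha2 : m / 8 < a + 1 := Nat.lt_floor_add_one _
    have ha3 : 1 ≤ a := by
      have : (5 : ℝ) < a := by linarith
      have h5 : 5 < a := by exact_mod_cast this
      omega
    obtain ⟨α, hα, σ, hσ, A, s₀, hA, hcard, hB⟩ := family a ha3
    refine ⟨α, hα, σ, hσ, A, s₀, hA, hcard.trans ?_, ?_⟩
    · have h1 : (a : ℝ) ^ 3 ≤ (m / 8) ^ 3 := pow_le_pow_left₀ (Nat.cast_nonneg a) ha1 3
      have h2 : (500 : ℝ) * a ^ 3 ≤ n := by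
        rw [← hm3]
        have h3 : (m / 8) ^ 3 = m ^ 3 / 512 := by ring
        have h4 : 0 ≤ m ^ 3 := by positivity
        rw [h3] at h1
        linarith
      exact_mod_cast h2
    · intro Q hQ B hBA
      have h1 := hB Q hQ B hBA
      have h2 : (2 : ℝ) ^ a < 4 * (Fintype.card Q + 1) := by exact_mod_cast h1
      have h3 : (2 : ℝ) ^ ((1 / 48 : ℝ) * m + 2) ≤ (2 : ℝ) ^ (a : ℝ) :=
        Real.rpow_le_rpow_of_exponent_le (by norm_num) (by linarith)
      rw [Real.rpow_add (by norm_num), Real.rpow_natCast] at h3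
      have h4 : (2 : ℝ) ^ (2 : ℝ) = 4 := by norm_num
      rw [h4] at h3
      linarith

/-- Real polynomials are bounded by polynomials with natural coefficients. -/
theorem exists_nat_poly (p : Polynomial ℝ) : ∃ q : Polynomial ℕ, ∀ n : ℕ, p.eval (n : ℝ) ≤ (q.eval n : ℕ) := by
  refine ⟨∑ i ∈ Finset.range (p.natDegree + 1), Polynomial.monomial i ⌈|p.coeff i|⌉₊, fun n => ?_⟩
  rw [Polynomial.eval_eq_sum_range, Polynomial.eval_finsetSum]
  push_cast
  apply Finset.sum_le_sum
  intro i _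
  rw [Polynomial.eval_monomial]
  push_cast
  apply mul_le_mul_of_nonneg_right _ (by positivity)
  exact (le_abs_self _).trans (Nat.le_ceil _)

/-- **One-way nondeterminism against two-way determinism.** There is `c > 0` such that for every `n ≥ 1` some
one-way nondeterministic automaton with one start state and at most `n` states is such that every equivalent deterministic two-way
automaton has at least `2 ^ (c n^(1/3)) - 1` states; in particular no polynomial bounds the cost of the conversion. -/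
theorem result :
    (∃ c : ℝ, 0 < c ∧ ∀ n : ℕ, 1 ≤ n →
      ∃ (α : Type) (_ : Fintype α) (σ : Type) (_ : Fintype σ) (A : NFA α σ) (s₀ : σ),
        A.start = {s₀} ∧ Fintype.card σ ≤ n ∧
        ∀ (Q : Type) (_ : Fintype Q) (B : DetTwoWay α Q),
          (∀ w, B.Recognizes w ↔ w ∈ A.accepts) →
            (2 : ℝ) ^ (c * (n : ℝ) ^ (1 / 3 : ℝ)) ≤ Fintype.card Q + 1) ∧
    (∀ p : Polynomial ℝ,
      ∃ (α : Type) (_ : Fintype α) (σ : Type) (_ : Fintype σ) (A : NFA α σ) (s₀ : σ),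
        A.start = {s₀} ∧
        ∀ (Q : Type) (_ : Fintype Q) (B : DetTwoWay α Q),
          (∀ w, B.Recognizes w ↔ w ∈ A.accepts) →
            p.eval (Fintype.card σ : ℝ) < Fintype.card Q) := by
  refine ⟨⟨1 / 48, by norm_num, exp_form⟩, fun p => ?_⟩
  obtain ⟨q, hq⟩ := exists_nat_poly p
  obtain ⟨a, ha, hlarge⟩ := exists_large q
  obtain ⟨α, hα, σ, hσ, A, s₀, hA, hcard, hB⟩ := family a ha
  refine ⟨α, hα, σ, hσ, A, s₀, hA, fun Q hQ B hBA => ?_⟩
  have h1 := hB Q hQ B hBA
  have h2 := hlarge _ hcard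
  have h3 : q.eval (Fintype.card σ) < Fintype.card Q := by omega
  calc p.eval (Fintype.card σ : ℝ) ≤ (q.eval (Fintype.card σ) : ℕ) := hq _
    _ < Fintype.card Q := by exact_mod_cast h3

end Vale.Agent.Results.P343.TwoWayBlowup
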